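import Vale.Agent.P221.Loc.Cov
import Vale.Agent.P251.S.TowerR
import Vale.Agent.P251.S.Seq

/-!
# P221 (helper817): collapse of the `R`-based Adams tower

For a class `F` of objects for which every `1`-cocycle is a coboundary, and a bounded below
`X` in `F`, the maps `W ⟶ X` are the `0`-cocycles `W ⟶ R ⊗ X`.
-/

open CategoryTheory MonoidalCategory MonObj Limits Pretriangulated

set_option linter.unusedSectionVars false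

universe u

noncomputable section

namespace Vale.Agent.P221.H817.Col

open Vale.Agent.P251.T Vale.Agent.P251.S Vale.Agent.P251.H Vale.Agent.P251.M
  Vale.Agent.P251.I Vale.Agent.P257.H762 Vale.Agent.P221.H136

variable {𝒯 : Type u} [Category.{0} 𝒯] [Preadditive 𝒯] [HasZeroObject 𝒯]
    [HasShift 𝒯 ℤ] [∀ n : ℤ, (shiftFunctor 𝒯 n).Additive] [Pretriangulated 𝒯] [IsTriangulated 𝒯]
    [MonoidalCategory 𝒯] [SymmetricCategory 𝒯] [TensorTriangulated 𝒯] [MonoidalClosed 𝒯]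
    [HasCoproducts.{0} 𝒯] [HasProducts.{0} 𝒯] [StableCat 𝒯]

/-! ### Transposition along the shift -/

/-- `(W⟦1⟧ ⟶ Z) → (W ⟶ Z⟦-1⟧)` -/
def dn {W Z : 𝒯} (g : W⟦(1 : ℤ)⟧ ⟶ Z) : W ⟶ Z⟦(-1 : ℤ)⟧ :=
  (shiftFunctorCompIsoId 𝒯 (1 : ℤ) (-1) (by norm_num)).inv.app W ≫ g⟦(-1 : ℤ)⟧'

theorem dn_comp {W Z Z' : 𝒯} (g : W⟦(1 : ℤ)⟧ ⟶ Z) (u : Z ⟶ Z') :
    dn (g ≫ u) = dn g ≫ u⟦(-1 : ℤ)⟧' := by
  rw [dn, dn, Functor.map_comp, Category.assoc]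

theorem dn_zero {W Z : 𝒯} : dn (0 : W⟦(1 : ℤ)⟧ ⟶ Z) = 0 := by
  rw [dn, Functor.map_zero, comp_zero]

theorem dn_map {W Z : 𝒯} (f : W ⟶ Z) :
    dn (f⟦(1 : ℤ)⟧') ≫ (shiftFunctorCompIsoId 𝒯 (1 : ℤ) (-1) (by norm_num)).hom.app Z = f := by
  rw [dn, Category.assoc]
  have h := (shiftFunctorCompIsoId 𝒯 (1 : ℤ) (-1) (by norm_num)).hom.naturality f
  change (f⟦(1 : ℤ)⟧')⟦(-1 : ℤ)⟧' ≫ _ = _ ≫ f at h
  rw [h, Iso.inv_hom_id_app_assoc]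

variable {R : 𝒯} [MonObj R] (U : UnitCof R)

/-! ### The tower -/

/-- the fibre of the unit `Y ⟶ R ⊗ Y` -/
abbrev nx (Y : 𝒯) : 𝒯 := (U.J ⊗ Y)⟦(-1 : ℤ)⟧

/-- the map `fib ⟶ Y` -/
def bb (Y : 𝒯) : nx U Y ⟶ Y :=
  (U.bdry Y)⟦(-1 : ℤ)⟧' ≫ (shiftFunctorCompIsoId 𝒯 (1 : ℤ) (-1) (by norm_num)).hom.app Y

theorem dn_bb {W Y : 𝒯} (g : W⟦(1 : ℤ)⟧ ⟶ U.J ⊗ Y) :
    dn g ≫ bb U Y = dn (g ≫ U.bdry Y) ≫
      (shiftFunctorCompIsoId 𝒯 (1 : ℤ) (-1) (by norm_num)).hom.app Y := by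
  rw [dn_comp, Category.assoc]
  rfl

theorem dn_unit {W Z : 𝒯} (g : W⟦(1 : ℤ)⟧ ⟶ Z) (h : g ≫ unitMap R Z = 0) :
    dn g ≫ unitMap R (Z⟦(-1 : ℤ)⟧) = 0 := by
  rw [← cancel_mono (csh R (-1) Z).hom, Category.assoc, unitMap_csh, ← dn_comp, h, dn_zero,
    zero_comp]

/-- normalised `1`-cocycles of `Y` which come from `J ⊗ Y` are coboundaries -/
def Exc (W Y : 𝒯) : Prop :=
  ∀ g : W ⟶ U.J ⊗ Y, ∃ h : W ⟶ R ⊗ Y,
    g ≫ unitMap R (U.J ⊗ Y) = h ≫ (U.ρ ▷ Y) ≫ unitMap R (U.J ⊗ Y)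

variable {U}

/-- lifting through one stage of the tower -/
theorem exists_next {W Y : 𝒯} (hE : Exc U (W⟦(1 : ℤ)⟧) Y) (f : W ⟶ Y) (hf : f ≫ unitMap R Y = 0) :
    ∃ g : W ⟶ nx U Y, g ≫ bb U Y = f ∧ g ≫ unitMap R (nx U Y) = 0 := by
  have h1 : f⟦(1 : ℤ)⟧' ≫ (unitMap R Y)⟦(1 : ℤ)⟧' = 0 := by
    rw [← Functor.map_comp, hf, Functor.map_zero]
  obtain ⟨g', hg'⟩ : ∃ g' : W⟦(1 : ℤ)⟧ ⟶ U.J ⊗ Y, f⟦(1 : ℤ)⟧' = g' ≫ U.bdry Y :=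
    Triangle.coyoneda_exact₁ _ (U.triangle_distinguished Y) _ h1
  obtain ⟨h, hh⟩ := hE g'
  have h2 : (U.ρ ▷ Y) ≫ U.bdry Y = 0 :=
    comp_distTriang_mor_zero₂₃ _ (U.triangle_distinguished Y)
  have h3 : (g' - h ≫ (U.ρ ▷ Y)) ≫ U.bdry Y = f⟦(1 : ℤ)⟧' := by
    rw [Preadditive.sub_comp, Category.assoc, h2, comp_zero, sub_zero, hg']
  have h4 : (g' - h ≫ (U.ρ ▷ Y)) ≫ unitMap R (U.J ⊗ Y) = 0 := by
    rw [Preadditive.sub_comp, hh, Category.assoc, sub_self]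
  exact ⟨dn (g' - h ≫ (U.ρ ▷ Y)), by rw [dn_bb, h3, dn_map], dn_unit _ h4⟩

variable (U) in
/-- the stages of the tower -/
def stage (X : 𝒯) : ℕ → 𝒯
  | 0 => X
  | s + 1 => nx U (stage X s)

variable (U) in
/-- the maps of the tower -/
def tmap (X : 𝒯) (s : ℕ) : stage U X (s + 1) ⟶ stage U X s := bb U (stage U X s)

variable {F : 𝒯 → Prop}

theorem stage_mem (hF : ∀ Y, F Y → F (nx U Y)) {X : 𝒯} (hX : F X) (s : ℕ) : F (stage U X s) := by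
  induction s with
  | zero => exact hX
  | succ s ih => exact hF _ ih

variable (U) in
/-- `J ⊗ Y` is more connected than `Y`, for `Y` in the class `F` -/
def Raise (F : 𝒯 → Prop) : Prop :=
  ∀ (c : ℤ) (Y : 𝒯), F Y → BigCell 𝒯 c Y → BigCell 𝒯 (2 + c) (U.J ⊗ Y)

theorem raise_of_bigCell (hJ : BigCell 𝒯 2 U.J) : Raise U F := fun _ _ _ hY => hJ.tensor hY _ rfl

theorem bigCell_nx (hJ : Raise U F) {c : ℤ} {Y : 𝒯} (hFY : F Y) (hY : BigCell 𝒯 c Y) :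
    BigCell 𝒯 (c + 1) (nx U Y) := by
  have h1 : BigCell 𝒯 (2 + c) (U.J ⊗ Y) := hJ c Y hFY hY
  exact h1.shift (-1) _ (by ring)

theorem bigCell_stage (hJ : Raise U F) (hF : ∀ Y, F Y → F (nx U Y)) {c : ℤ} {X : 𝒯} (hFX : F X)
    (hX : BigCell 𝒯 c X) (s : ℕ) : BigCell 𝒯 (c + s) (stage U X s) := by
  induction s with
  | zero =>
    change BigCell 𝒯 (c + ((0 : ℕ) : ℤ)) X
    simpa using hX
  | succ s ih =>
    have h := bigCell_nx hJ (stage_mem hF hFX s) ih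
    have e : c + (s : ℤ) + 1 = c + ((s + 1 : ℕ) : ℤ) := by push_cast; ring
    rw [e] at h
    exact h

/-- the homotopy limit of the tower is zero -/
theorem hol_zero (h0 : Conn (0 : ℤ) (𝟙_ 𝒯)) (hJ : Raise U F) (hF : ∀ Y, F Y → F (nx U Y)) {c : ℤ}
    {X : 𝒯} (hFX : F X) (hX : BigCell 𝒯 c X) (H : Hol (tmap U X)) : IsZero H.obj := by
  have key : ∀ (n : ℤ) (s : ℕ), n < c + s → ∀ x : (𝟙_ 𝒯)⟦n⟧ ⟶ stage U X s, x = 0 :=
    fun n s hn x => BigCell.conn' h0 (bigCell_stage hJ hF hFX hX s) n hn x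
  have pz : ∀ V : 𝒯, (∃ s₀ : ℕ, ∀ s, s₀ ≤ s → ∀ x : V ⟶ stage U X s, x = 0) →
      ProZero (A := fun s => (V ⟶ stage U X s)) (homTower V (tmap U X)) := by
    rintro V ⟨s₀, hs₀⟩ s
    refine ⟨max s s₀, le_max_left _ _, ?_⟩
    ext x
    have hx : x = 0 := hs₀ _ (le_max_right _ _) x
    rw [hx, map_zero, map_zero]
  refine isZero_of_forall_conn StableCat.generator fun _ n _ f => ?_
  refine H.hom_eq_zero (pz _ ?_).lim1 (fun x hx => (pz _ ?_).compat_eq_zero hx) f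
  · refine ⟨(n + 1 - c).toNat + 1, fun s hs x => ?_⟩
    let e : ((𝟙_ 𝒯)⟦n⟧)⟦(1 : ℤ)⟧ ≅ (𝟙_ 𝒯)⟦n + 1⟧ :=
      ((shiftFunctorAdd' 𝒯 n 1 (n + 1) rfl).app (𝟙_ 𝒯)).symm
    rw [← cancel_epi e.inv, comp_zero]
    exact key (n + 1) s (by omega) _
  · exact ⟨(n - c).toNat + 1, fun s hs x => key n s (by omega) x⟩

/-- **injectivity** -/
theorem eq_zero_of_unit (h0 : Conn (0 : ℤ) (𝟙_ 𝒯)) (hJ : Raise U F)
    (hF : ∀ Y, F Y → F (nx U Y)) {W : 𝒯} (hE : ∀ Y, F Y → Exc U (W⟦(1 : ℤ)⟧) Y) {c : ℤ} {X : 𝒯}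
    (hX : F X) (hc : BigCell 𝒯 c X) (f : W ⟶ X) (hf : f ≫ unitMap R X = 0) : f = 0 := by
  choose g hg1 hg2 using fun (s : ℕ) (x : W ⟶ stage U X s) (hx : x ≫ unitMap R _ = 0) =>
    exists_next (hE _ (stage_mem hF hX s)) x hx
  let x : ∀ s, {x : W ⟶ stage U X s // x ≫ unitMap R _ = 0} := fun s =>
    Nat.rec ⟨f, hf⟩ (fun s y => ⟨g s y.1 y.2, hg2 s y.1 y.2⟩) s
  have hx : HCompat (tmap U X) fun s => (x s).1 := fun s => hg1 s (x s).1 (x s).2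
  obtain ⟨l, hl⟩ := (hol (tmap U X)).exists_lift (fun s => (x s).1) hx
  have h1 : f = l ≫ (hol (tmap U X)).π 0 := (hl 0).symm
  rw [h1, (hol_zero h0 hJ hF hX hc (hol (tmap U X))).eq_of_tgt l 0, zero_comp]
  rfl

/-- **surjectivity** -/
theorem exists_of_coc (h0 : Conn (0 : ℤ) (𝟙_ 𝒯)) (hJ : Raise U F)
    (hF : ∀ Y, F Y → F (nx U Y)) (hF' : ∀ Y, F Y → F (U.J ⊗ Y)) {W : 𝒯}
    (hE : ∀ Y, F Y → Exc U (W⟦(1 : ℤ)⟧) Y) {c : ℤ} {X : 𝒯}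
    (hX : F X) (hc : BigCell 𝒯 c X) (φ : W ⟶ R ⊗ X)
    (hφ : φ ≫ (U.ρ ▷ X) ≫ unitMap R (U.J ⊗ X) = 0) : ∃ f : W ⟶ X, f ≫ unitMap R X = φ := by
  have hJX : BigCell 𝒯 (2 + c) (U.J ⊗ X) := hJ c X hX hc
  have h1 : φ ≫ (U.ρ ▷ X) = 0 := eq_zero_of_unit h0 hJ hF hE (hF' X hX) hJX _ (by
    rw [Category.assoc]; exact hφ)
  obtain ⟨f, hf⟩ : ∃ f : W ⟶ X, φ = f ≫ unitMap R X :=
    Triangle.coyoneda_exact₂ _ (U.triangle_distinguished X) φ h1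
  exact ⟨f, hf.symm⟩

/-! ### Cocycles -/

variable (R) in
/-- `0`-cocycles -/
def Coc0 {W X : 𝒯} (φ : W ⟶ R ⊗ X) : Prop :=
  φ ≫ unitMap R (R ⊗ X) = φ ≫ (R ◁ unitMap R X)

variable (R) in
/-- `1`-cocycles -/
def Coc1 {W X : 𝒯} (K : W ⟶ R ⊗ R ⊗ X) : Prop :=
  K ≫ unitMap R (R ⊗ R ⊗ X) - K ≫ (R ◁ unitMap R (R ⊗ X)) + K ≫ (R ◁ R ◁ unitMap R X) = 0

theorem unit_coc0 {W X : 𝒯} (f : W ⟶ X) : Coc0 R (f ≫ unitMap R X) := by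
  rw [Coc0, Category.assoc, Category.assoc, unitMap_nat]

theorem coc0_iff {W X : 𝒯} (φ : W ⟶ R ⊗ X) :
    Coc0 R φ ↔ φ ≫ (U.ρ ▷ X) ≫ unitMap R (U.J ⊗ X) = 0 := by
  have e1 : (U.ρ ▷ X) ≫ unitMap R (U.J ⊗ X) = unitMap R (R ⊗ X) ≫ (R ◁ (U.ρ ▷ X)) :=
    unitMap_nat _
  constructor
  · intro h
    rw [e1, ← Category.assoc, h, Category.assoc, ← MonoidalCategory.whiskerLeft_comp,
      U.unitMap_ρ]
    simp
  · intro h
    rw [e1, ← Category.assoc] at h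
    obtain ⟨ψ, hψ⟩ : ∃ ψ : W ⟶ R ⊗ X, φ ≫ unitMap R (R ⊗ X) = ψ ≫ (R ◁ unitMap R X) :=
      Triangle.coyoneda_exact₂ _
        (tensorLeftTriangle_distinguished R _ (U.triangle_distinguished X)) _ h
    have h2 := congrArg (fun a => a ≫ mulMap R X) hψ
    simp only [Category.assoc, unitMap_mulMap, whiskerLeft_unitMap_mulMap, Category.comp_id] at h2
    rw [Coc0, hψ, h2]

/-- a normalised element of `R ⊗ R ⊗ R ⊗ X` which dies in `R ⊗ J ⊗ J ⊗ X` is zero -/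
theorem eq_zero_of_norm {W X : 𝒯} (z : W ⟶ R ⊗ R ⊗ R ⊗ X) (h1 : z ≫ mulMap R (R ⊗ X) = 0)
    (h2 : z ≫ (R ◁ mulMap R X) = 0)
    (h3 : z ≫ (R ◁ R ◁ (U.ρ ▷ X)) ≫ (R ◁ (U.ρ ▷ (U.J ⊗ X))) = 0) : z = 0 := by
  have e1 : z ≫ (R ◁ R ◁ (U.ρ ▷ X)) = 0 := by
    obtain ⟨w, hw⟩ : ∃ w : W ⟶ R ⊗ U.J ⊗ X,
        z ≫ (R ◁ R ◁ (U.ρ ▷ X)) = w ≫ (R ◁ unitMap R (U.J ⊗ X)) :=
      Triangle.coyoneda_exact₂ _
        (tensorLeftTriangle_distinguished R _ (U.triangle_distinguished (U.J ⊗ X))) _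
        ((Category.assoc _ _ _).trans h3)
    have h4 := congrArg (fun a => a ≫ mulMap R (U.J ⊗ X)) hw
    simp only [Category.assoc, whiskerLeft_unitMap_mulMap, Category.comp_id] at h4
    rw [mulMap_nat, ← Category.assoc, h1, zero_comp] at h4
    rw [hw, ← h4, zero_comp]
  obtain ⟨v, hv⟩ : ∃ v : W ⟶ R ⊗ R ⊗ X, z = v ≫ (R ◁ R ◁ unitMap R X) :=
    Triangle.coyoneda_exact₂ _ (tensorLeftTriangle_distinguished R _
      (tensorLeftTriangle_distinguished R _ (U.triangle_distinguished X))) _ e1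
  have h4 := congrArg (fun a => a ≫ (R ◁ mulMap R X)) hv
  simp only [Category.assoc, ← MonoidalCategory.whiskerLeft_comp, whiskerLeft_unitMap_mulMap] at h4
  rw [h2, MonoidalCategory.whiskerLeft_id, Category.comp_id] at h4
  rw [hv, ← h4, zero_comp]

/-- **`Exc` from the vanishing of `H¹`** -/
theorem exc_of_coc {W X : 𝒯} (hT : ∀ K : W ⟶ R ⊗ R ⊗ X, Coc1 R K →
    ∃ h : W ⟶ R ⊗ X, K = h ≫ (R ◁ unitMap R X) - h ≫ unitMap R (R ⊗ X)) : Exc U W X := by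
  intro g
  obtain ⟨σ, hσ1, hσ2⟩ := exists_section_of_retraction _
      (tensorLeftTriangle_distinguished R _ (U.triangle_distinguished X)) (mulMap R X)
      (whiskerLeft_unitMap_mulMap X)
  change R ⊗ U.J ⊗ X ⟶ R ⊗ R ⊗ X at σ
  replace hσ1 : σ ≫ (R ◁ (U.ρ ▷ X)) = 𝟙 _ := hσ1
  replace hσ2 : (R ◁ (U.ρ ▷ X)) ≫ σ = 𝟙 _ - mulMap R X ≫ (R ◁ unitMap R X) := hσ2
  have hσ3 : σ ≫ mulMap R X = 0 := by
    have h1 := congrArg (fun a => σ ≫ a ≫ mulMap R X) hσ2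
    simp only [Preadditive.sub_comp, Category.assoc, Category.id_comp,
      whiskerLeft_unitMap_mulMap, Category.comp_id, sub_self] at h1
    rw [reassoc_of% hσ1, comp_zero] at h1
    exact h1
  let K : W ⟶ R ⊗ R ⊗ X := g ≫ unitMap R (U.J ⊗ X) ≫ σ
  have hK1 : K ≫ (R ◁ (U.ρ ▷ X)) = g ≫ unitMap R (U.J ⊗ X) := by
    simp only [K, Category.assoc, hσ1, Category.comp_id]
  have hK2 : K ≫ mulMap R X = 0 := by
    simp only [K, Category.assoc, hσ3, comp_zero]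
  have hK : Coc1 R K := by
    refine eq_zero_of_norm (U := U) _ ?_ ?_ ?_
    · rw [Preadditive.add_comp, Preadditive.sub_comp]
      simp only [Category.assoc, unitMap_mulMap, whiskerLeft_unitMap_mulMap, Category.comp_id,
        sub_self, zero_add]
      rw [mulMap_nat, reassoc_of% hK2, zero_comp]
    · rw [Preadditive.add_comp, Preadditive.sub_comp]
      simp only [Category.assoc, ← MonoidalCategory.whiskerLeft_comp, unitMap_mulMap,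
        whiskerLeft_unitMap_mulMap, MonoidalCategory.whiskerLeft_id, Category.comp_id]
      rw [← unitMap_nat, reassoc_of% hK2, zero_comp]
      simp
    · rw [Preadditive.add_comp, Preadditive.sub_comp]
      have a1 : K ≫ unitMap R (R ⊗ R ⊗ X) ≫ (R ◁ R ◁ (U.ρ ▷ X)) ≫ (R ◁ (U.ρ ▷ (U.J ⊗ X))) = 0 := by
        rw [← unitMap_nat_assoc, ← unitMap_nat, reassoc_of% hK1,
          reassoc_of% (U.unitMap_ρ (U.J ⊗ X))]
        simp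
      have a2 : K ≫ (R ◁ unitMap R (R ⊗ X)) ≫ (R ◁ R ◁ (U.ρ ▷ X)) ≫
          (R ◁ (U.ρ ▷ (U.J ⊗ X))) = 0 := by
        simp only [← MonoidalCategory.whiskerLeft_comp]
        rw [← unitMap_nat_assoc, U.unitMap_ρ]
        simp
      have a3 : K ≫ (R ◁ R ◁ unitMap R X) ≫ (R ◁ R ◁ (U.ρ ▷ X)) ≫
          (R ◁ (U.ρ ▷ (U.J ⊗ X))) = 0 := by
        simp only [← MonoidalCategory.whiskerLeft_comp, ← MonoidalCategory.whiskerLeft_comp_assoc]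
        rw [U.unitMap_ρ]
        simp
      simp only [Category.assoc]
      rw [a1, a2, a3]
      simp
  obtain ⟨h, hh⟩ := hT K hK
  refine ⟨-h, ?_⟩
  have e1 : (U.ρ ▷ X) ≫ unitMap R (U.J ⊗ X) = unitMap R (R ⊗ X) ≫ (R ◁ (U.ρ ▷ X)) :=
    unitMap_nat _
  rw [← hK1, hh, Preadditive.sub_comp, Category.assoc, Category.assoc,
    ← MonoidalCategory.whiskerLeft_comp, U.unitMap_ρ, e1, Preadditive.neg_comp]
  simp

/-- **(C)** If every `1`-cocycle of every object of the class `F` is a coboundary, then for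
bounded below `X` in `F` the maps `W ⟶ X` are the `0`-cocycles `W ⟶ R ⊗ X`. -/
theorem collapse (h0 : Conn (0 : ℤ) (𝟙_ 𝒯)) (hJ : Raise U F)
    (hF : ∀ Y, F Y → F (nx U Y)) (hF' : ∀ Y, F Y → F (U.J ⊗ Y)) {W : 𝒯}
    (hT : ∀ Y, F Y → ∀ K : W⟦(1 : ℤ)⟧ ⟶ R ⊗ R ⊗ Y, Coc1 R K →
      ∃ h : W⟦(1 : ℤ)⟧ ⟶ R ⊗ Y, K = h ≫ (R ◁ unitMap R Y) - h ≫ unitMap R (R ⊗ Y))
    {c : ℤ} {X : 𝒯} (hX : F X) (hc : BigCell 𝒯 c X) :
    (Function.Injective fun f : W ⟶ X => f ≫ unitMap R X) ∧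
      ∀ φ : W ⟶ R ⊗ X, Coc0 R φ → ∃ f : W ⟶ X, f ≫ unitMap R X = φ := by
  have hE : ∀ Y, F Y → Exc U (W⟦(1 : ℤ)⟧) Y := fun Y hY => exc_of_coc (hT Y hY)
  refine ⟨fun f g hfg => ?_, fun φ hφ => ?_⟩
  · change f ≫ unitMap R X = g ≫ unitMap R X at hfg
    exact sub_eq_zero.1 (eq_zero_of_unit h0 hJ hF hE hX hc (f - g)
      (by rw [Preadditive.sub_comp, hfg, sub_self]))
  · exact exists_of_coc h0 hJ hF hF' hE hX hc φ (coc0_iff φ |>.1 hφ)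

end Vale.Agent.P221.H817.Col
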