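import Vale.Agent.P251.M.EvenCell
import Vale.Agent.P251.M.TelPi
import Vale.Agent.P251.M.EvenShift

/-!
# P221, block D: covers by finite even complexes

`EvenCell.cover` : every `x : S^{2k} ⟶ Z ⊗ X`, `Z` a finite even complex, comes from a finite even
complex `F ⟶ X`. Consequence (`exists_cover_of_isTel`): if `R` is a telescope of finite even
complexes, every homotopy class of `R ⊗ X` comes from some `F ⟶ X`, `F` (a shift of) a finite even
complex.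
-/

open CategoryTheory MonoidalCategory Limits Pretriangulated ZeroObject
open Vale.Agent.P251.T Vale.Agent.P251.M

universe v u

set_option linter.unusedSectionVars false
set_option linter.style.haveILetI false

namespace Vale.Agent.P221.H817

variable {T : Type u} [Category.{v} T] [Preadditive T] [HasZeroObject T]
    [HasShift T ℤ] [∀ n : ℤ, (shiftFunctor T n).Additive] [Pretriangulated T] [IsTriangulated T]
    [MonoidalCategory T] [SymmetricCategory T] [TensorTriangulated T] [MonoidalClosed T]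
    [HasCoproducts.{0} T] [HasProducts.{0} T] [StableCat T]

/-- the triangle `(X ⟶ Y ⟶ W) ⊗ Z` (third map not specified) -/
lemma dist_tensorRight {X Y W : T} {f : X ⟶ Y} {g : Y ⟶ W} {h : W ⟶ X⟦(1 : ℤ)⟧}
    (H : Triangle.mk f g h ∈ distTriang T) (Z : T) :
    ∃ h' : W ⊗ Z ⟶ (X ⊗ Z)⟦(1 : ℤ)⟧, Triangle.mk (f ▷ Z) (g ▷ Z) h' ∈ distTriang T :=
  exists_dist_of_iso (dist_tensor H Z) (β_ Z X) (β_ Z Y) (β_ Z W) (by simp) (by simp)

/-- Every class `x : W ⟶ Z ⊗ X` comes from some `F ⟶ X` with `F` of type `P`. -/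
def HasCover (P : T → Prop) (W Z : T) : Prop :=
  ∀ (X : T) (x : W ⟶ Z ⊗ X), ∃ F : T, P F ∧ ∃ (f : F ⟶ X) (y : W ⟶ Z ⊗ F), y ≫ (Z ◁ f) = x

/-- a property of objects closed under extensions -/
def ExtCl (P : T → Prop) : Prop :=
  ∀ Δ : Triangle T, Δ ∈ distTriang T → P Δ.obj₁ → P Δ.obj₃ → P Δ.obj₂

lemma HasCover.ext {P : T → Prop} (hP : ExtCl P) {W : T} (Δ : Triangle T)
    (hΔ : Δ ∈ distTriang T) (h₁ : HasCover P W Δ.obj₁) (h₃ : HasCover P W Δ.obj₃) :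
    HasCover P W Δ.obj₂ := by
  obtain ⟨Z1, Z2, Z3, a, b, c⟩ := Δ
  change HasCover P W Z1 at h₁
  change HasCover P W Z3 at h₃
  change HasCover P W Z2
  intro X x
  obtain ⟨F3, hF3, f3, y3, hy3⟩ := h₃ X (x ≫ (b ▷ X))
  obtain ⟨C, g, h, hT⟩ := distinguished_cocone_triangle f3
  obtain ⟨c', hc'⟩ := dist_tensorRight hΔ C
  obtain ⟨x1, hx1⟩ := dist_co₂ hc' (x ≫ (Z2 ◁ g)) (by
    rw [Category.assoc, whisker_exchange, ← Category.assoc, ← hy3, Category.assoc,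
      ← MonoidalCategory.whiskerLeft_comp, dist_zero₁₂ hT, MonoidalPreadditive.whiskerLeft_zero,
      comp_zero])
  obtain ⟨F1, hF1, f1, y1, hy1⟩ := h₁ C x1
  obtain ⟨F, i, q, hF⟩ := distinguished_cocone_triangle₂ (f1 ≫ h)
  obtain ⟨f, hf1, hf2⟩ := complete_distinguished_triangle_morphism₂ _ _ hF hT (𝟙 F3) f1
    (by
      change (f1 ≫ h) ≫ (𝟙 F3)⟦(1 : ℤ)⟧' = f1 ≫ h
      rw [CategoryTheory.Functor.map_id, Category.comp_id])
  change F ⟶ X at f
  change i ≫ f = 𝟙 F3 ≫ f3 at hf1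
  change q ≫ f1 = f ≫ g at hf2
  rw [Category.id_comp] at hf1
  have hT2 := dist_tensor hT Z2
  have hFt := dist_tensor hF Z2
  -- the class of `Z2 ⊗ F1`
  have e1 : (y1 ≫ a ▷ F1) ≫ Z2 ◁ f1 = x ≫ Z2 ◁ g := by
    rw [Category.assoc, ← whisker_exchange, ← Category.assoc, hy1, hx1]
  obtain ⟨y2, hy2⟩ := dist_co₃ hFt (y1 ≫ a ▷ F1) (by
    rw [MonoidalCategory.whiskerLeft_comp, Category.assoc (Z2 ◁ f1), ← Category.assoc _ (Z2 ◁ f1),
      e1, Category.assoc x, ← MonoidalCategory.whiskerLeft_comp_assoc, dist_zero₂₃ hT,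
      MonoidalPreadditive.whiskerLeft_zero, zero_comp, comp_zero])
  obtain ⟨z, hz⟩ := dist_co₂ hT2 (x - y2 ≫ Z2 ◁ f) (by
    rw [Preadditive.sub_comp, Category.assoc, ← MonoidalCategory.whiskerLeft_comp, ← hf2,
      MonoidalCategory.whiskerLeft_comp, ← Category.assoc y2, ← hy2, e1, sub_self])
  refine ⟨F, hP _ hF hF3 hF1, f, y2 + z ≫ Z2 ◁ i, ?_⟩
  have e2 : (z ≫ Z2 ◁ i) ≫ Z2 ◁ f = x - y2 ≫ Z2 ◁ f := by
    rw [Category.assoc, ← MonoidalCategory.whiskerLeft_comp, hf1, ← hz]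
  rw [Preadditive.add_comp, e2]
  abel

lemma HasCover.of_isZero {P : T → Prop} (h0 : ∀ X : T, IsZero X → P X) {W Z : T}
    (hZ : IsZero Z) : HasCover P W Z := by
  intro X x
  have h1 : IsZero (Z ⊗ X) := by
    rw [IsZero.iff_id_eq_zero, ← MonoidalCategory.id_whiskerRight,
      (IsZero.iff_id_eq_zero Z).mp hZ, MonoidalPreadditive.zero_whiskerRight]
  exact ⟨0, h0 _ (isZero_zero T), 0, 0, h1.eq_of_tgt _ _⟩

/-- for invertible `Z` -/
lemma HasCover.of_isInv {P : T → Prop} {W Z : T} [(tensorLeft Z).Full] (W' : T) (hW' : P W')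
    (e : Z ⊗ W' ≅ W) : HasCover P W Z := by
  intro X x
  obtain ⟨f, hf⟩ := (tensorLeft Z).map_surjective (X := W') (Y := X) (e.hom ≫ x)
  refine ⟨W', hW', f, e.inv, ?_⟩
  change Z ◁ f = e.hom ≫ x at hf
  rw [hf, Iso.inv_hom_id_assoc]

lemma full_tensorLeft_unit_shift (n : ℤ) : (tensorLeft ((𝟙_ T)⟦2 * n⟧)).Full := by
  have i1 : tensorLeft ((𝟙_ T)⟦2 * n⟧) ≅ tensorLeft ((stdEven T).S n) :=
    (curriedTensor T).mapIso ((stdEven T).sphIso (Iso.refl _) n).symm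
  have : (tensorLeft ((stdEven T).S n)).IsEquivalence := IsInv.equiv
  have := Functor.isEquivalence_of_iso i1.symm
  infer_instance

/-- **The cover lemma**: every class in `π_{2k}(Z ⊗ X)`, `Z` a finite even complex, comes from a
finite even complex over `X`. -/
theorem hasCover_evenCell {d : ℤ} {Z : T} (hZ : EvenCell T d Z) (k : ℤ) :
    HasCover (fun F => ∃ d' : ℤ, EvenCell T d' F) ((𝟙_ T)⟦2 * k⟧) Z := by
  induction hZ with
  | zero Z hZ => exact HasCover.of_isZero (fun X hX => ⟨0, EvenCell.zero X hX⟩) hZ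
  | sphere j hj =>
    have := full_tensorLeft_unit_shift (T := T) j
    refine HasCover.of_isInv ((𝟙_ T)⟦2 * (k - j)⟧) ⟨k - j, EvenCell.sphere _ le_rfl⟩ ?_
    exact tensorUnitShiftIso _ _ ≪≫
      ((shiftFunctorAdd' T (2 * j) (2 * (k - j)) (2 * k) (by ring)).app (𝟙_ T)).symm
  | ext Δ hΔ _ _ ih₁ ih₃ =>
    refine HasCover.ext ?_ Δ hΔ ih₁ ih₃
    rintro Δ' hΔ' ⟨d1, h1⟩ ⟨d3, h3⟩
    exact ⟨min d1 d3, EvenCell.ext Δ' hΔ' (h1.mono (min_le_left _ _)) (h3.mono (min_le_right _ _))⟩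

/-- The same for a telescope `R` of finite even complexes. -/
theorem exists_cover_of_isTel {E : ℕ ⥤ T} {R : T} {ι : ∀ n, E.obj n ⟶ R} (tel : IsTel E R ι)
    (hE : ∀ n, ∃ d, EvenCell T d (E.obj n)) (X : T) (k : ℤ) (x : (𝟙_ T)⟦2 * k⟧ ⟶ R ⊗ X) :
    ∃ (F : T) (d : ℤ), EvenCell T d F ∧ ∃ (f : F ⟶ X) (y : (𝟙_ T)⟦2 * k⟧ ⟶ R ⊗ F),
      y ≫ (R ◁ f) = x := by
  obtain ⟨n, x', hx'⟩ := tel.whiskerRight_factor X (isCpt_sph (2 * k)) x
  obtain ⟨d, hd⟩ := hE n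
  obtain ⟨F, ⟨d', hF⟩, f, y, hy⟩ := hasCover_evenCell hd k X x'
  refine ⟨F, d', hF, f, y ≫ ι n ▷ F, ?_⟩
  rw [Category.assoc, ← whisker_exchange, ← Category.assoc, hy, hx']

end Vale.Agent.P221.H817
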