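import Vale.Agent.P251.M.TelPi
import Vale.Agent.P251.M.Kleisli

/-!
# P221, block D3: universal coefficients (abstract part)

`HC R C X = R ⊗ (X ⊗ C)` (in the application `R = MU`, `C = S/p`, so that
`π_* (HC R C X) = MU_* (X; 𝔽_p)`), with a natural transformation `e : X ⟶ HC R C X` and a retraction
`ν : HC R C N ⟶ N` of `e N`. For `f : X ⟶ N` and `w : W ⟶ HC R C X` let
`kap f w = w ≫ R ◁ (f ▷ C) ≫ ν : W ⟶ N`.

* `compat_eq_zero` : a compatible family of maps `Y s ⟶ N` is zero, if all transition maps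
  `Y s ⟶ Y (s + 1)` are zero on `π_* (HC R C -)`;
* `eq_zero_of_KZ` : injectivity in the universal coefficient theorem;
* `exists_of_cover` : surjectivity in the universal coefficient theorem.
-/

open CategoryTheory MonoidalCategory Limits Pretriangulated ZeroObject MonObj
open Vale.Agent.P251.T Vale.Agent.P251.M Vale.Agent.P251.S

universe v u

set_option linter.unusedSectionVars false
set_option linter.style.haveILetI false

namespace Vale.Agent.P221.H817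

variable {T : Type u} [Category.{v} T] [Preadditive T] [HasZeroObject T]
    [HasShift T ℤ] [∀ n : ℤ, (shiftFunctor T n).Additive] [Pretriangulated T] [IsTriangulated T]
    [MonoidalCategory T] [SymmetricCategory T] [TensorTriangulated T] [MonoidalClosed T]
    [HasCoproducts.{0} T] [HasProducts.{0} T] [StableCat T]

/-- `R ⊗ (X ⊗ C)` -/
abbrev HC (R C X : T) : T := R ⊗ (X ⊗ C)

/-- the map `R ⊗ (f ⊗ C)` -/
abbrev hmap (R C : T) {X Y : T} (f : X ⟶ Y) : HC R C X ⟶ HC R C Y := R ◁ (f ▷ C)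

variable (R C : T)

lemma hmap_id (X : T) : hmap R C (𝟙 X) = 𝟙 _ := by simp [hmap]

lemma hmap_comp {X Y Z : T} (f : X ⟶ Y) (g : Y ⟶ Z) :
    hmap R C (f ≫ g) = hmap R C f ≫ hmap R C g := by simp [hmap]

lemma hmap_zero (X Y : T) : hmap R C (0 : X ⟶ Y) = 0 := by
  simp [hmap]

lemma hmap_add {X Y : T} (f g : X ⟶ Y) : hmap R C (f + g) = hmap R C f + hmap R C g := by
  simp [hmap]

lemma hmap_sub {X Y : T} (f g : X ⟶ Y) : hmap R C (f - g) = hmap R C f - hmap R C g := by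
  rw [hmap, whiskerRight_sub, whiskerLeft_sub]

/-- the triangle `R ⊗ ((X ⟶ Y ⟶ W) ⊗ C)` (third map not specified) -/
lemma dist_hmap {X Y W : T} {f : X ⟶ Y} {g : Y ⟶ W} {h : W ⟶ X⟦(1 : ℤ)⟧}
    (H : Triangle.mk f g h ∈ distTriang T) :
    ∃ h' : HC R C W ⟶ (HC R C X)⟦(1 : ℤ)⟧,
      Triangle.mk (hmap R C f) (hmap R C g) h' ∈ distTriang T := by
  obtain ⟨h1, H1⟩ := exists_dist_of_iso (f' := f ▷ C) (g' := g ▷ C) (dist_tensor H C) (β_ C X)
    (β_ C Y) (β_ C W) (by simp) (by simp)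
  exact ⟨_, dist_tensor H1 R⟩

variable {R C}

/-- `g` is zero on `π_* (HC R C -)` -/
def Null (R C : T) {X Y : T} (g : X ⟶ Y) : Prop :=
  ∀ (k : ℤ) (w : Sph T k ⟶ HC R C X), w ≫ hmap R C g = 0

/-- `a` is onto on `π_* (HC R C -)` -/
def Onto (R C : T) {X Y : T} (a : X ⟶ Y) : Prop :=
  ∀ (k : ℤ) (w : Sph T k ⟶ HC R C Y), ∃ w' : Sph T k ⟶ HC R C X, w' ≫ hmap R C a = w

/-- A telescope of a sequence, its universal property, and compactness of spheres. -/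
lemma exists_seq_tel (R C : T) {Y : ℕ → T} (g : ∀ s, Y s ⟶ Y (s + 1)) :
    ∃ (L : T) (ι : ∀ n, Y n ⟶ L), (∀ n, g n ≫ ι (n + 1) = ι n) ∧
      (∀ (N : T) (h : ∀ s, Y s ⟶ N), (∀ s, g s ≫ h (s + 1) = h s) →
        ∃ l : L ⟶ N, ∀ n, ι n ≫ l = h n) ∧
      ∀ (k : ℤ) (w : Sph T k ⟶ HC R C L), ∃ (n : ℕ) (w' : Sph T k ⟶ HC R C (Y n)),
        w' ≫ hmap R C (ι n) = w := by
  obtain ⟨L, ι, tel⟩ := exists_isTel (Functor.ofSequence g)
  have hF : ∀ n, (Functor.ofSequence g).map (homOfLE (Nat.le_succ n)) = g n := fun n =>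
    Functor.ofSequence_map_homOfLE_succ g n
  refine ⟨L, ι, fun n => ?_, fun N h hc => tel.exists_lift h (fun n => ?_), fun k w => ?_⟩
  · have := tel.comp_succ n
    rw [hF n] at this
    exact this
  · rw [hF n]
    exact hc n
  · exact (tel.whiskerRight C).whiskerLeft_factor R (isCpt_sph k) w

/-- A retraction `ν : R ⊗ (N ⊗ C) ⟶ N` of a natural map `e : X ⟶ R ⊗ (X ⊗ C)`. -/
structure RetStr (R C N : T) where
  /-- the unit -/
  e (X : T) : X ⟶ HC R C X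
  nat {X Y : T} (f : X ⟶ Y) : f ≫ e Y = e X ≫ hmap R C f
  /-- the retraction -/
  ν : HC R C N ⟶ N
  ret : e N ≫ ν = 𝟙 N

variable {N : T} (M : RetStr R C N)

/-- The value of `f : X ⟶ N` on the class `w : W ⟶ R ⊗ (X ⊗ C)`. -/
def kap {X W : T} (f : X ⟶ N) (w : W ⟶ HC R C X) : W ⟶ N := w ≫ hmap R C f ≫ M.ν

lemma kap_def {X W : T} (f : X ⟶ N) (w : W ⟶ HC R C X) : kap M f w = w ≫ hmap R C f ≫ M.ν := rfl

lemma kap_add {X W : T} (f g : X ⟶ N) (w : W ⟶ HC R C X) :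
    kap M (f + g) w = kap M f w + kap M g w := by
  rw [kap, kap, kap, hmap_add, Preadditive.add_comp, Preadditive.comp_add]

lemma kap_sub {X W : T} (f g : X ⟶ N) (w : W ⟶ HC R C X) :
    kap M (f - g) w = kap M f w - kap M g w := by
  rw [kap, kap, kap, hmap_sub, Preadditive.sub_comp, Preadditive.comp_sub]

lemma kap_zero {X W : T} (w : W ⟶ HC R C X) : kap M (0 : X ⟶ N) w = 0 := by
  rw [kap, hmap_zero, zero_comp, comp_zero]

lemma kap_comp {X Y W : T} (a : X ⟶ Y) (f : Y ⟶ N) (w : W ⟶ HC R C X) :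
    kap M (a ≫ f) w = kap M f (w ≫ hmap R C a) := by
  rw [kap, kap, hmap_comp, Category.assoc, Category.assoc]

lemma comp_kap {X W W' : T} (f : X ⟶ N) (u : W' ⟶ W) (w : W ⟶ HC R C X) :
    kap M f (u ≫ w) = u ≫ kap M f w := by
  rw [kap, kap, Category.assoc]

lemma kap_add_right {X W : T} (f : X ⟶ N) (w w' : W ⟶ HC R C X) :
    kap M f (w + w') = kap M f w + kap M f w' := by
  rw [kap, kap, kap, Preadditive.add_comp]

lemma kap_zero_right {X W : T} (f : X ⟶ N) : kap M f (0 : W ⟶ HC R C X) = 0 := by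
  rw [kap, zero_comp]

/-- `f : X ⟶ N` is determined by its extension to `R ⊗ (X ⊗ C)`. -/
lemma kap_e {X : T} (f : X ⟶ N) : kap M f (M.e X) = f := by
  rw [kap, ← Category.assoc, ← M.nat, Category.assoc, M.ret, Category.comp_id]

/-- all values of `f` are zero -/
def KZ {X : T} (f : X ⟶ N) : Prop := ∀ (k : ℤ) (w : Sph T k ⟶ HC R C X), kap M f w = 0

lemma KZ.zero {X : T} : KZ M (0 : X ⟶ N) := fun _ _ => kap_zero M _

variable {M}

lemma KZ.comp {X Y : T} (a : X ⟶ Y) {f : Y ⟶ N} (hf : KZ M f) : KZ M (a ≫ f) := fun k w => by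
  rw [kap_comp]
  exact hf k _

lemma KZ.of_onto {X Y : T} {a : X ⟶ Y} (ha : Onto R C a) {f : Y ⟶ N} (hf : KZ M (a ≫ f)) :
    KZ M f := fun k w => by
  obtain ⟨w', rfl⟩ := ha k w
  rw [← kap_comp]
  exact hf k _

variable (M)

include M in
/-- **Acyclic objects.** Maps from an object `L` with `π_* (R ⊗ (L ⊗ C)) = 0` to `N` are zero. -/
theorem eq_zero_of_acyclic {L : T} (hL : ∀ (k : ℤ) (w : Sph T k ⟶ HC R C L), w = 0)
    (l : L ⟶ N) : l = 0 := by
  have hz : IsZero (HC R C L) := isZero_of_pi hL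
  rw [← kap_e M l, kap, hz.eq_of_src (hmap R C l) 0, zero_comp, comp_zero]

include M in
/-- **Convergence.** A compatible family of maps from a sequence whose transition maps are zero on
`π_* (R ⊗ (- ⊗ C))` to `N` is zero. -/
theorem compat_eq_zero {Y : ℕ → T} (g : ∀ s, Y s ⟶ Y (s + 1))
    (hg : ∀ s, Null R C (g s)) (h : ∀ s, Y s ⟶ N) (hc : ∀ s, g s ≫ h (s + 1) = h s) (s : ℕ) :
    h s = 0 := by
  obtain ⟨L, ι, h1, h2, h3⟩ := exists_seq_tel R C g
  obtain ⟨l, hl⟩ := h2 N h hc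
  have h0 : l = 0 := by
    apply eq_zero_of_acyclic M
    intro k w
    obtain ⟨n, w', rfl⟩ := h3 k w
    rw [← h1 n, hmap_comp, ← Category.assoc, hg n k w', zero_comp]
  rw [← hl s, h0, comp_zero]

/-- A resolution step `G ⟶ Y ⟶ Y' ⟶ G⟦1⟧`. -/
structure ResStep (R C G Y Y' : T) where
  /-- the cover -/
  a : G ⟶ Y
  /-- the map to the (shifted) syzygy -/
  g : Y ⟶ Y'
  /-- the connecting map -/
  δ : Y' ⟶ G⟦(1 : ℤ)⟧
  dist : Triangle.mk a g δ ∈ distTriang T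
  onto : Onto R C a

lemma ResStep.null {G Y Y' : T} (r : ResStep R C G Y Y') : Null R C r.g := by
  intro k w
  obtain ⟨w', rfl⟩ := r.onto k w
  rw [Category.assoc, ← hmap_comp, dist_zero₁₂ r.dist, hmap_zero, comp_zero]

/-- **Universal coefficients, injectivity.** -/
theorem eq_zero_of_KZ {G Y : ℕ → T} (r : ∀ s, ResStep R C (G s) (Y s) (Y (s + 1)))
    (hG : ∀ s (u : G s ⟶ N), KZ M u → u = 0)
    (hext : ∀ s (h : Y (s + 1) ⟶ N), ∃ u : (G s)⟦(1 : ℤ)⟧ ⟶ N, KZ M (h - (r s).δ ≫ u))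
    (f : Y 0 ⟶ N) (hf : KZ M f) : f = 0 := by
  have step : ∀ s (h : {h : Y s ⟶ N // KZ M h}), ∃ h' : {h : Y (s + 1) ⟶ N // KZ M h},
      (r s).g ≫ h'.1 = h.1 := by
    rintro s ⟨h, hh⟩
    obtain ⟨h', hh'⟩ := dist_yo₂ (r s).dist h (hG s _ (hh.comp _))
    obtain ⟨u, hu⟩ := hext s h'
    refine ⟨⟨h' - (r s).δ ≫ u, hu⟩, ?_⟩
    change (r s).g ≫ (h' - (r s).δ ≫ u) = h
    rw [Preadditive.comp_sub, ← Category.assoc, dist_zero₂₃ (r s).dist, zero_comp, sub_zero, hh']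
  choose nx hnx using step
  let hs : ∀ s, {h : Y s ⟶ N // KZ M h} := fun s => Nat.rec ⟨f, hf⟩ (fun s h => nx s h) s
  exact compat_eq_zero M (fun s => (r s).g) (fun s => (r s).null) (fun s => (hs s).1)
    (fun s => hnx s (hs s)) 0

/-- **Universal coefficients, surjectivity.** Let `φ` be a functional on `π_* (R ⊗ (X ⊗ C))`; if its
pull back to the cover `G` is realised by `u : G ⟶ N`, and maps from the syzygy are determined by
their values, then `φ` is realised. -/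
theorem exists_of_cover {X₁ G X : T} {i : X₁ ⟶ G} {a : G ⟶ X}
    {δ : X ⟶ X₁⟦(1 : ℤ)⟧} (hd : Triangle.mk i a δ ∈ distTriang T) (onto : Onto R C a)
    (hinj : ∀ f : X₁ ⟶ N, KZ M f → f = 0)
    (φ : ∀ k : ℤ, (Sph T k ⟶ HC R C X) → (Sph T k ⟶ N)) (h0 : ∀ k, φ k 0 = 0)
    (u : G ⟶ N) (hu : ∀ (k : ℤ) (w : Sph T k ⟶ HC R C G), kap M u w = φ k (w ≫ hmap R C a)) :
    ∃ f : X ⟶ N, a ≫ f = u ∧ ∀ (k : ℤ) (w : Sph T k ⟶ HC R C X), kap M f w = φ k w := by
  have h1 : i ≫ u = 0 := hinj _ fun k w => by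
    rw [kap_comp, hu, Category.assoc, ← hmap_comp, dist_zero₁₂ hd, hmap_zero, comp_zero, h0]
  obtain ⟨f, hf⟩ := dist_yo₂ hd u h1
  refine ⟨f, hf.symm, fun k w => ?_⟩
  obtain ⟨w', rfl⟩ := onto k w
  rw [← kap_comp, ← hf, hu]

end Vale.Agent.P221.H817
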