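import Vale.Agent.P221.H817.D3
import Vale.Agent.P221.H174.Sph

/-!
# P221, block D3: universal coefficients for `MU`

`uct_ofMU` : the field `uct` of the final induction, for the context of `MU` and `S/p` and a target
with `π_odd = 0`.
-/

open CategoryTheory MonoidalCategory Limits Pretriangulated MonObj
open Vale.Agent.P251.T Vale.Agent.P251.M Vale.Agent.P251.S Vale.Agent.P251.I Vale.Agent.P093.N0
open Vale.Agent.P221.H817 Vale.Agent.P221.H174 Vale.Agent.P221.H520 Vale.Agent.P251.M.EvenSpheres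

universe u

set_option linter.unusedSectionVars false
set_option linter.unusedVariables false

noncomputable section

namespace Vale.Agent.P221.H817

variable {T : Type u} [Category.{0} T] [Preadditive T] [HasZeroObject T]
    [HasShift T ℤ] [∀ n : ℤ, (shiftFunctor T n).Additive] [Pretriangulated T] [IsTriangulated T]
    [MonoidalCategory T] [SymmetricCategory T] [TensorTriangulated T] [MonoidalClosed T]
    [HasCoproducts.{0} T] [HasProducts.{0} T] [StableCat T]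

/-- `MU` is a telescope of finite even complexes -/
lemma exists_tel_R (D : MUData T) : ∃ (F : ℕ ⥤ T) (ιF : ∀ j, F.obj j ⟶ D.R), IsTel F D.R ιF ∧
    ∀ j, ∃ d, EvenCell T d (F.obj j) := by
  obtain ⟨F, ιF, hF, hc⟩ := D.cells 1
  refine ⟨F, fun j => ιF j ≫ (λ_ D.R).hom, hF.of_iso (Iso.refl _) (λ_ D.R) ?_, fun j => ⟨0, hc j⟩⟩
  intro n
  simp

variable (D : MUData T) (hA : MUAll D) {C : T} {i : 𝟙_ T ⟶ C} {p : ℕ} [Fact p.Prime]
    {δ : C ⟶ (𝟙_ T)⟦(1 : ℤ)⟧} (hC : Triangle.mk ((p : ℤ) • 𝟙 (𝟙_ T)) i δ ∈ distTriang T)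

/-- good covers exist -/
theorem exists_good_cover (t : Tgt (Ctx.ofMU D hA hC))
    (hN : ∀ (k : ℤ) (f : (𝟙_ T)⟦2 * k + 1⟧ ⟶ t.N), f = 0) (X : T) :
    ∃ (F : T) (f : F ⟶ X), Good t F ∧ Onto (Ctx.ofMU D hA hC).R (Ctx.ofMU D hA hC).C f := by
  obtain ⟨E, ιF, tel, hE⟩ := exists_tel_R D
  obtain ⟨F, hF, f, hf⟩ := exists_test_cover hC tel hE X
  exact ⟨F, f, good_of_test (reg_ofMU D hA hC).odd
    (fun k => (reg_ofMU D hA hC).good_sphere t hN k) hF, hf⟩

/-- **Universal coefficients for `MU`.** -/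
theorem uct_ofMU (t : Tgt (Ctx.ofMU D hA hC))
    (hN : ∀ (k : ℤ) (f : (𝟙_ T)⟦2 * k + 1⟧ ⟶ t.N), f = 0) {P : Set ℕ} {q : ℕ → ℕ}
    (hP : ∀ m, q m ∉ P) (hq : Function.Injective q) (hPq : ∀ m, m ∈ P ∨ ∃ l, m = q l) (X : T)
    (hX : ∀ j : ℤ, 1 ≤ j → GM.KK P q t.G ((Ctx.ofMU D hA hC).M (X⟦j⟧)) 0) :
    t.KInj X ∧ t.KSurj X :=
  ⟨uct_inj (exists_good_cover D hA hC t hN) hP hq hPq X hX,
    uct_surj (exists_good_cover D hA hC t hN) hP hq hPq X hX⟩

end Vale.Agent.P221.H817
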