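import Vale.Agent.P221.H520.Good
import Vale.Agent.P221.GMLem

/-!
# P221, block D3: universal coefficients

`t : Tgt c` (an `R`-module `N` with `p = 0`), `q : ℕ → ℕ` injective, every `m` is in `P` or is some
`q l`. If `M(X⟦j⟧)` is in the class `KK P q (π_{2*} N) 0` for all `j ≥ 1`, then
`κ : Hom(X, N) → Lin (M(X)) (π_{2*} N)` is bijective.
-/

open CategoryTheory MonoidalCategory Limits Pretriangulated MonObj
open Vale.Agent.P251.T Vale.Agent.P251.M Vale.Agent.P251.S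
open Vale.Agent.P221.H817 Vale.Agent.P221.H174 Vale.Agent.P221.H520 Vale.Agent.P251.M.EvenSpheres

universe u

set_option linter.unusedSectionVars false
set_option linter.unusedVariables false

noncomputable section

namespace Vale.Agent.P221.H817

variable {T : Type u} [Category.{0} T] [Preadditive T] [HasZeroObject T]
    [HasShift T ℤ] [∀ n : ℤ, (shiftFunctor T n).Additive] [Pretriangulated T] [IsTriangulated T]
    [MonoidalCategory T] [SymmetricCategory T] [TensorTriangulated T] [MonoidalClosed T]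
    [HasCoproducts.{0} T] [HasProducts.{0} T] [StableCat T] {p : ℕ} {c : Ctx T p} (t : Tgt c)

/-- The retraction structure of a target. -/
def tgtRet : RetStr c.R c.C t.N where
  e X := rd c.i X ≫ ModStr.unitMap c.R (X ⊗ c.C)
  nat {X Y} f := by
    rw [← Category.assoc, rd_naturality, Category.assoc, Category.assoc]
    congr 1
    unfold ModStr.unitMap
    rw [leftUnitor_inv_naturality_assoc, whisker_exchange, Category.assoc]
  ν := kfun t.L t.r (𝟙 t.N)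
  ret := by
    rw [Category.assoc]
    exact unit_kfun t.L t.r t.hr (𝟙 t.N)

/-- convergence for `t.N` -/
theorem tgt_compat_eq_zero {Y : ℕ → T} (g : ∀ s, Y s ⟶ Y (s + 1))
    (hg : ∀ s, Null c.R c.C (g s)) (h : ∀ s, Y s ⟶ t.N) (hc : ∀ s, g s ≫ h (s + 1) = h s)
    (s : ℕ) : h s = 0 := compat_eq_zero (tgtRet t) g hg h hc s

/-- `M(a)` is onto if `a` is onto on `π_*` -/
lemma map_surj_of_onto {X Y : T} {a : X ⟶ Y} (ha : Onto c.R c.C a) (i : ℤ) (y : (c.M Y).A i) :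
    ∃ x, (c.map a).f i x = y := by
  have h0 : ∀ y : (stdEven T).S i ⟶ c.R ⊗ (Y ⊗ c.C), ∃ x : (stdEven T).S i ⟶ c.R ⊗ (X ⊗ c.C),
      x ≫ (c.R ◁ (a ▷ c.C)) = y := by
    intro y
    obtain ⟨x, hx⟩ := ha (2 * i) (((stdEven T).sphIso (Iso.refl _) i).inv ≫ y)
    refine ⟨((stdEven T).sphIso (Iso.refl _) i).hom ≫ x, ?_⟩
    rw [Category.assoc]
    change _ ≫ x ≫ hmap c.R c.C a = y
    rw [hx, Iso.hom_inv_id_assoc]
  exact h0 y

/-- shifts of onto maps are onto -/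
lemma onto_shift {R C X Y : T} {f : X ⟶ Y} (hf : Onto R C f) (n : ℤ) : Onto R C (f⟦n⟧') := by
  intro k w
  let F : T ⥤ T := tensorRight C ⋙ tensorLeft R
  have hnat : hmap R C (f⟦n⟧') ≫ (F.commShiftIso n).hom.app Y =
      (F.commShiftIso n).hom.app X ≫ (hmap R C f)⟦n⟧' := (F.commShiftIso n).hom.naturality f
  let e : (𝟙_ T)⟦k⟧ ≅ ((𝟙_ T)⟦k - n⟧)⟦n⟧ := (shiftFunctorAdd' T (k - n) n k (by ring)).app (𝟙_ T)
  obtain ⟨w', hw'⟩ := (shiftFunctor T n).map_surjective (X := (𝟙_ T)⟦k - n⟧) (Y := HC R C Y)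
    (e.inv ≫ w ≫ (F.commShiftIso n).hom.app Y)
  obtain ⟨v, hv⟩ := hf (k - n) w'
  refine ⟨e.hom ≫ v⟦n⟧' ≫ (F.commShiftIso n).inv.app X, ?_⟩
  have h1 : (F.commShiftIso n).inv.app X ≫ hmap R C (f⟦n⟧') ≫ (F.commShiftIso n).hom.app Y =
      (hmap R C f)⟦n⟧' := by
    rw [hnat, Iso.inv_hom_id_app_assoc]
  rw [← cancel_mono ((F.commShiftIso n).hom.app Y), Category.assoc, Category.assoc,
    Category.assoc, h1, ← Functor.map_comp, hv, hw', Iso.hom_inv_id_assoc]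

lemma onto_neg {R C X Y : T} {f : X ⟶ Y} (hf : Onto R C f) : Onto R C (-f) := by
  intro k w
  obtain ⟨w', hw'⟩ := hf k w
  have h1 : hmap R C (-f) = -hmap R C f := by
    rw [hmap, neg_whiskerRight', whiskerLeft_neg']
  exact ⟨-w', by rw [h1, Preadditive.neg_comp_neg, hw']⟩

section step

variable {G Y Y' : T}

/-- shifts of resolution steps -/
def ResStep.shift (r : ResStep c.R c.C G Y Y') (j : ℤ) : ResStep c.R c.C (G⟦j⟧) (Y⟦j⟧) (Y'⟦j⟧) where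
  a := j.negOnePow • r.a⟦j⟧'
  g := j.negOnePow • r.g⟦j⟧'
  δ := j.negOnePow • r.δ⟦j⟧' ≫ (shiftFunctorComm T 1 j).hom.app G
  dist := Triangle.shift_distinguished _ r.dist j
  onto := by
    rcases Int.units_eq_one_or j.negOnePow with h1 | h1
    · rw [h1, one_smul]
      exact onto_shift r.onto j
    · rw [h1, Units.neg_smul, one_smul]
      exact onto_neg (onto_shift r.onto j)

/-- the short exact sequence `0 → M(Y') → M(G⟦1⟧) → M(Y⟦1⟧) → 0` -/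
def ResStep.ses (r : ResStep c.R c.C G Y Y') : GM.Ses (c.M Y') (c.M (G⟦(1 : ℤ)⟧)) (c.M (Y⟦(1 : ℤ)⟧)) :=
  c.ses' (rot_of_distTriang _ (rot_of_distTriang _ r.dist))
    (fun i x hx => by
      obtain ⟨y, rfl⟩ := c.exact₂ (rot_of_distTriang _ r.dist) i x hx
      exact map_eq_zero_of_null r.null i y)
    (fun i z => c.exact₃ (rot_of_distTriang _ (rot_of_distTriang _ r.dist)) i z
      (map_eq_zero_of_null (null_neg (null_shift r.null 1)) i z))

variable {P : Set ℕ} {q : ℕ → ℕ} {t}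

lemma KK_of_iso {R : GM (ZMod p)} {t₀ : ℤ} {X Z : T} (e : X ≅ Z)
    (h : GM.KK P q R (c.M X) t₀) : GM.KK P q R (c.M Z) t₀ :=
  GM.KK.of_iso (c.map e.inv) (fun i => by
    constructor
    · intro x y hxy
      have h1 := congrArg ((c.map e.hom).f i) hxy
      rwa [← c.map_comp, ← c.map_comp, Iso.inv_hom_id, c.map_id, c.map_id] at h1
    · intro x
      exact ⟨(c.map e.hom).f i x, by rw [← c.map_comp, Iso.hom_inv_id, c.map_id]⟩) h

lemma ResStep.g_comp_sub {N : T} (r : ResStep c.R c.C G Y Y') {h : Y ⟶ N} {h' : Y' ⟶ N}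
    (hh : h = r.g ≫ h') (u : G⟦(1 : ℤ)⟧ ⟶ N) : r.g ≫ (h' - r.δ ≫ u) = h := by
  rw [Preadditive.comp_sub, ← Category.assoc, dist_zero₂₃ r.dist, zero_comp, sub_zero, hh]

/-- `M(Y'⟦j⟧)` is in the class, if `M(Y⟦j + 1⟧)` is and `G` is good. -/
theorem ResStep.KK (r : ResStep c.R c.C G Y Y') (hP : ∀ m, q m ∉ P)
    (hq : Function.Injective q) (hG : Good t G)
    {R : GM (ZMod p)} (t₀ : ℤ)
    (j j' : ℤ) (hj : j + 1 = j') (hY : GM.KK P q R (c.M (Y⟦j'⟧)) t₀) :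
    GM.KK P q R (c.M (Y'⟦j⟧)) t₀ := by
  refine GM.KK.sub (r.shift j).ses ?_ (KK_of_iso ((shiftFunctorAdd' T j 1 j' hj).app Y) hY)
  exact GM.KK.of_fr (fun P => ((hG.shift j) 1).proj P) hP hq _

/-- functionals on `M(Y')` which come from maps extend to `G⟦1⟧` -/
theorem ResStep.exists_ext (r : ResStep c.R c.C G Y Y') (hPq : ∀ m, m ∈ P ∨ ∃ l, m = q l) (hG : Good t G)
    (hY : GM.KK P q t.G (c.M (Y⟦(1 : ℤ)⟧)) 0) (h : Y' ⟶ t.N) :
    ∃ u : G⟦(1 : ℤ)⟧ ⟶ t.N, t.kap (h - r.δ ≫ u) = 0 := by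
  obtain ⟨ψ, hψ, hψ'⟩ := r.ses.lift_all hY (le_refl 0) (φ := (t.kap h).fn)
    (fun m => ⟨fun i _ => (t.kap h).com_fn (Set.mem_univ _),
      fun l _ => (t.kap h).com_fn (Set.mem_univ _)⟩)
  obtain ⟨u, hu⟩ := (hG 1).surj (GM.Lin.ofFn ψ (fun m _ => by
    rcases hPq m with hm | ⟨l, rfl⟩
    · exact (hψ 0).com m hm
    · exact (hψ (l + 1)).com' l (Nat.lt_succ_self l)))
  refine ⟨u, ?_⟩
  have h1 : t.kap (r.δ ≫ u) = t.kap h := by
    rw [t.kap_comp, hu]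
    apply GM.Lin.fn_injective
    rw [GM.Lin.comp_fn, GM.Lin.fn_ofFn]
    exact hψ'
  rw [t.kap_sub, h1]
  exact GM.Lin.ext fun i x => by rw [GM.Lin.sub_f, sub_self, GM.Lin.zero_f]

end step

section uct

variable {P : Set ℕ} {q : ℕ → ℕ} {t}
  (hcov : ∀ X : T, ∃ (F : T) (f : F ⟶ X), Good t F ∧ Onto c.R c.C f)
  (hP : ∀ m, q m ∉ P) (hq : Function.Injective q) (hPq : ∀ m, m ∈ P ∨ ∃ l, m = q l)

include hcov

lemma exists_step (Y : T) : ∃ (G Y' : T) (_ : ResStep c.R c.C G Y Y'), Good t G := by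
  obtain ⟨G, a, hG, ha⟩ := hcov Y
  obtain ⟨Y', g, δ, hd⟩ := distinguished_cocone_triangle a
  exact ⟨G, Y', ⟨a, g, δ, hd, ha⟩, hG⟩

include hP hq hPq

/-- **Universal coefficients, injectivity.** -/
theorem uct_inj (X : T) (hX : ∀ j : ℤ, 1 ≤ j → GM.KK P q t.G (c.M (X⟦j⟧)) 0) : t.KInj X := by
  choose G Y' r hG using exists_step hcov (t := t)
  -- the sequence
  let Y : ℕ → T := fun s => Nat.rec X (fun _ Y => Y' Y) s
  have hY : ∀ s, ∀ j : ℤ, 1 ≤ j → GM.KK P q t.G (c.M ((Y s)⟦j⟧)) 0 := by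
    intro s
    induction s with
    | zero => exact hX
    | succ s ih =>
      intro j hj
      exact (r (Y s)).KK hP hq (hG (Y s)) 0 j (j + 1) rfl (ih (j + 1) (by omega))
  intro f hf
  have step : ∀ s (h : {h : Y s ⟶ t.N // t.kap h = 0}),
      ∃ h' : {h : Y (s + 1) ⟶ t.N // t.kap h = 0}, (r (Y s)).g ≫ h'.1 = h.1 := by
    rintro s ⟨h, hh⟩
    have h0 : (r (Y s)).a ≫ h = 0 := ((hG (Y s) 0).inj.of_iso
      ((shiftFunctorZero T ℤ).app _)) _ (by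
        rw [t.kap_comp, hh]
        exact GM.Lin.ext fun i x => rfl)
    obtain ⟨h', hh'⟩ := dist_yo₂ (r (Y s)).dist h h0
    obtain ⟨u, hu⟩ := (r (Y s)).exists_ext hPq (hG (Y s)) (hY s 1 le_rfl) h'
    exact ⟨⟨h' - (r (Y s)).δ ≫ u, hu⟩, (r (Y s)).g_comp_sub hh' u⟩
  choose nx hnx using step
  let hs : ∀ s, {h : Y s ⟶ t.N // t.kap h = 0} := fun s => Nat.rec ⟨f, hf⟩ (fun s h => nx s h) s
  exact tgt_compat_eq_zero t (fun s => (r (Y s)).g) (fun s => (r (Y s)).null) (fun s => (hs s).1)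
    (fun s => hnx s (hs s)) 0

/-- **Universal coefficients, surjectivity.** -/
theorem uct_surj (X : T) (hX : ∀ j : ℤ, 1 ≤ j → GM.KK P q t.G (c.M (X⟦j⟧)) 0) : t.KSurj X := by
  obtain ⟨G, Y', r, hG⟩ := exists_step hcov (t := t) X
  have h1 : t.KInj (Y'⟦(-1 : ℤ)⟧) := by
    refine uct_inj hcov hP hq hPq _ fun j hj => ?_
    refine KK_of_iso ((shiftFunctorAdd' T (-1) j (j - 1) (by ring)).app Y') ?_
    exact r.KK hP hq hG 0 (j - 1) j (by ring) (hX j hj)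
  obtain ⟨i, δ, hd⟩ : ∃ (i : Y'⟦(-1 : ℤ)⟧ ⟶ G) (δ : X ⟶ Y'⟦(-1 : ℤ)⟧⟦(1 : ℤ)⟧),
      Triangle.mk i r.a δ ∈ distTriang T := ⟨_, _, inv_rot_of_distTriang _ r.dist⟩
  intro φ
  obtain ⟨u, hu⟩ := ((hG 0).surj.of_iso ((shiftFunctorZero T ℤ).app _)) ((c.map r.a).comp φ)
  have hiu : i ≫ u = 0 := h1 _ (by
    rw [t.kap_comp, hu]
    refine GM.Lin.ext fun k x => ?_
    change φ.f k ((c.map r.a).f k ((c.map i).f k x)) = 0
    rw [c.comp_eq_zero hd k x, map_zero])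
  obtain ⟨f, hf⟩ := dist_yo₂ hd u hiu
  refine ⟨f, GM.Lin.ext fun i x => ?_⟩
  obtain ⟨y, rfl⟩ := map_surj_of_onto r.onto i x
  have h2 : (c.map r.a).comp (t.kap f) = (c.map r.a).comp φ := by
    rw [← t.kap_comp, ← hf, hu]
  exact congrArg (fun z : GM.Lin Set.univ (c.M G) t.G => z.f i y) h2

end uct

end Vale.Agent.P221.H817
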